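import Vale.Agent.P004H.H86.Unf
import Vale.Agent.P004H.H86.Grp
import Vale.Agent.P004H.H392.RS2

/-!
# P004H.H86: the Rankin-Selberg integral (unfolded)
-/

open UpperHalfPlane MeasureTheory Set
open scoped MatrixGroups Modular ENNReal Real

namespace Vale.Agent.P004H.H86

/-- the form `|c z + d|^2 / y` -/
noncomputable def Qf (v : ℤ × ℤ) (z : ℍ) : ℝ :=
  (((v.1 : ℝ) * z.re + v.2) ^ 2 + ((v.1 : ℝ) * z.im) ^ 2) / z.im

theorem Qf_row (n : ℕ) (γ : SL(2, ℤ)) (z : ℍ) :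
    Qf (((n : ℤ) + 1) * γ 1 0, ((n : ℤ) + 1) * γ 1 1) z = ((n : ℝ) + 1) ^ 2 / (γ • z).im := by
  rw [ModularGroup.im_smul_eq_div_normSq, ModularGroup.denom_apply, Qf]
  have h1 : Complex.normSq ((γ 1 0 : ℂ) * z + γ 1 1) =
      ((γ 1 0 : ℝ) * z.re + γ 1 1) ^ 2 + ((γ 1 0 : ℝ) * z.im) ^ 2 := by
    rw [Complex.normSq_apply]
    simp
    ring
  rw [h1, div_div_eq_mul_div]
  push_cast
  ring

theorem measurable_S01 : Measurable S01 := by
  have h : Measurable fun z : ℍ => z.re := Complex.measurable_re.comp measurable_coe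
  refine measurable_const.indicator ?_
  exact (measurableSet_le measurable_const h).inter (measurableSet_lt h measurable_const)

theorem meas_im : Measurable fun z : ℍ => z.im := Complex.measurable_im.comp measurable_coe

theorem unf_main {H : ℍ → ℝ} (hm : Measurable H) (hinv : ∀ (g : SL(2, ℤ)) (z : ℍ), H (g • z) = H z)
    (t : ℝ) : ∫⁻ z in (𝒟 : Set ℍ), ENNReal.ofReal (H z) *
        ∑' v : NV, ENNReal.ofReal (Real.exp (-(π * t * Qf v z))) =
      2 * ∑' n : ℕ, ∫⁻ z : ℍ, ENNReal.ofReal (H z) *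
        (S01 z * ENNReal.ofReal (Real.exp (-(π * t * (((n : ℝ) + 1) ^ 2 / z.im))))) := by
  have := sl_countable
  have hφ : ∀ n : ℕ, Measurable fun z : ℍ => ENNReal.ofReal (H z) *
        (S01 z * ENNReal.ofReal (Real.exp (-(π * t * (((n : ℝ) + 1) ^ 2 / z.im))))) := by
    intro n
    refine (ENNReal.measurable_ofReal.comp hm).mul (measurable_S01.mul ?_)
    exact ENNReal.measurable_ofReal.comp
      (Real.measurable_exp.comp ((measurable_const.mul (measurable_const.div meas_im)).neg))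
  have h1 : ∀ z : ℍ, ENNReal.ofReal (H z) *
        ∑' v : NV, ENNReal.ofReal (Real.exp (-(π * t * Qf v z))) =
      ∑' n : ℕ, ∑' γ : SL(2, ℤ), ENNReal.ofReal (H (γ • z)) *
        (S01 (γ • z) * ENNReal.ofReal (Real.exp (-(π * t * (((n : ℝ) + 1) ^ 2 / (γ • z).im))))) := by
    intro z
    rw [group z (fun v => ENNReal.ofReal (Real.exp (-(π * t * Qf v z))))]
    rw [← ENNReal.tsum_mul_left]
    refine tsum_congr fun n => ?_
    rw [← ENNReal.tsum_mul_left]
    refine tsum_congr fun γ => ?_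
    rw [hinv, Qf_row]
  simp_rw [h1]
  rw [lintegral_tsum]
  · rw [← ENNReal.tsum_mul_left]
    refine tsum_congr fun n => ?_
    rw [lintegral_tsum]
    · rw [← unfold (hφ n)]
    · intro γ
      have : Measurable fun z : ℍ => (γ • z : ℍ) :=
        (MeasurableEquiv.smul ((γ : SL(2, ℤ)) : GL (Fin 2) ℝ)).measurable
      exact ((hφ n).comp this).aemeasurable
  · intro n
    refine Measurable.aemeasurable ?_
    refine Measurable.tsum fun γ => ?_
    have : Measurable fun z : ℍ => (γ • z : ℍ) :=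
      (MeasurableEquiv.smul ((γ : SL(2, ℤ)) : GL (Fin 2) ℝ)).measurable
    exact (hφ n).comp this

open Vale.Agent.P004H.H392 (W wi)

theorem J1 {m u κ : ℝ} (hm : 0 < m) (hu : 0 ≤ u) (hκ : 0 < κ) :
    ∫⁻ y in Ioi (0 : ℝ), ENNReal.ofReal
      (Real.exp (-(π * u / y)) * (Real.exp (-(4 * π * m * y / κ)) / κ)) =
      ENNReal.ofReal (W (u * m / κ) / (2 * m)) := by
  have hb : 0 < m / κ := by positivity
  have hu' : 0 ≤ u * m / κ := by positivity
  have e : ∀ y ∈ Ioi (0 : ℝ), Real.exp (-(π * u / y)) * (Real.exp (-(4 * π * m * y / κ)) / κ) =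
      κ⁻¹ * wi (u * m / κ) (m / κ * y) := by
    intro y hy
    have hy' : (0 : ℝ) < y := hy
    rw [wi, mul_div_assoc', ← Real.exp_add, div_eq_inv_mul]
    congr 2
    field_simp
    ring
  have hi : IntegrableOn (fun y => wi (u * m / κ) (m / κ * y)) (Ioi 0) := by
    have := (integrableOn_Ioi_comp_mul_left_iff (wi (u * m / κ)) 0 hb).mpr
      (by rw [mul_zero]; exact H392.integrable_wi hu')
    exact this
  rw [setLIntegral_congr_fun measurableSet_Ioi (fun y hy => by rw [e y hy])]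
  rw [← ofReal_integral_eq_lintegral_ofReal (hi.const_mul κ⁻¹)
    (Filter.Eventually.of_forall fun y => mul_nonneg (by positivity) (H392.wi_pos _ _).le)]
  congr 1
  rw [integral_const_mul, integral_comp_mul_left_Ioi (wi (u * m / κ)) 0 hb, mul_zero, H392.W_eq]
  simp only [smul_eq_mul]
  field_simp

theorem J2 {c u : ℝ} (hc : 0 ≤ c) (hu : 0 ≤ u) {m : ℕ} (hm : 0 < m) :
    ∫⁻ y in Ioi (0 : ℝ), ENNReal.ofReal (Real.exp (-(π * u / y)) *
      (c * (Real.exp (-(4 * π * m * y)) + Real.exp (-(4 * π * m * y / 11)) / 11))) =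
      ENNReal.ofReal (c / (2 * m) * (W (u * m) + W (u * m / 11))) := by
  have hm' : (0 : ℝ) < m := by exact_mod_cast hm
  have h1 := J1 (u := u) hm' hu (κ := 1) one_pos
  have h2 := J1 (u := u) hm' hu (κ := 11) (by norm_num)
  simp only [div_one] at h1
  have e : ∀ y : ℝ, ENNReal.ofReal (Real.exp (-(π * u / y)) *
      (c * (Real.exp (-(4 * π * m * y)) + Real.exp (-(4 * π * m * y / 11)) / 11))) =
      ENNReal.ofReal c * (ENNReal.ofReal (Real.exp (-(π * u / y)) * Real.exp (-(4 * π * m * y))) +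
        ENNReal.ofReal (Real.exp (-(π * u / y)) * (Real.exp (-(4 * π * m * y / 11)) / 11))) := by
    intro y
    rw [← ENNReal.ofReal_add (by positivity) (by positivity), ← ENNReal.ofReal_mul hc]
    congr 1
    ring
  simp_rw [e]
  rw [lintegral_const_mul _ (by fun_prop), lintegral_add_left (by fun_prop), h1, h2,
    ← ENNReal.ofReal_add (by have := H392.W_nonneg (u * m); positivity)
      (by have := H392.W_nonneg (u * m / 11); positivity), ← ENNReal.ofReal_mul hc]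
  congr 1
  ring

/-- the mean of `H` over horocycles, hypothesis -/
def Mean (H : ℍ → ℝ) (c : ℕ → ℝ) : Prop := ∀ y : ℝ, 0 < y →
  ∫⁻ x in Ico (0 : ℝ) 1, ENNReal.ofReal (H (ofComplex (⟨x, y⟩ : ℂ))) =
    ∑' m : ℕ, ENNReal.ofReal (y ^ 2 *
      (c m * (Real.exp (-(4 * π * m * y)) + Real.exp (-(4 * π * m * y / 11)) / 11)))

theorem H_int {H : ℍ → ℝ} (hm : Measurable H) {c : ℕ → ℝ} (hc : ∀ m, 0 ≤ c m) (hc0 : c 0 = 0)
    (hM : Mean H c) {u : ℝ} (hu : 0 ≤ u) :
    ∫⁻ z : ℍ, ENNReal.ofReal (H z) * (S01 z * ENNReal.ofReal (Real.exp (-(π * u / z.im)))) =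
      ∑' m : ℕ, ENNReal.ofReal (c m / (2 * m) * (W (u * m) + W (u * m / 11))) := by
  rw [lint_H]
  swap
  · refine (ENNReal.measurable_ofReal.comp hm).mul (measurable_S01.mul ?_)
    exact ENNReal.measurable_ofReal.comp
      (Real.measurable_exp.comp ((measurable_const.div meas_im).neg))
  have e : ∀ y ∈ Ioi (0 : ℝ), ∫⁻ x : ℝ, ENNReal.ofReal (H (ofComplex (⟨x, y⟩ : ℂ))) *
      (S01 (ofComplex (⟨x, y⟩ : ℂ)) *
        ENNReal.ofReal (Real.exp (-(π * u / (ofComplex (⟨x, y⟩ : ℂ)).im)))) *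
          ENNReal.ofReal (1 / y ^ 2) =
      ∑' m : ℕ, ENNReal.ofReal (Real.exp (-(π * u / y)) *
        (c m * (Real.exp (-(4 * π * m * y)) + Real.exp (-(4 * π * m * y / 11)) / 11))) := by
    intro y hy
    have hy' : (0 : ℝ) < y := hy
    have h1 : ∀ x : ℝ, ENNReal.ofReal (H (ofComplex (⟨x, y⟩ : ℂ))) *
      (S01 (ofComplex (⟨x, y⟩ : ℂ)) *
        ENNReal.ofReal (Real.exp (-(π * u / (ofComplex (⟨x, y⟩ : ℂ)).im)))) *
          ENNReal.ofReal (1 / y ^ 2) =
        (Ico (0 : ℝ) 1).indicator (fun x => ENNReal.ofReal (H (ofComplex (⟨x, y⟩ : ℂ)))) x *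
          (ENNReal.ofReal (Real.exp (-(π * u / y)) * (1 / y ^ 2))) := by
      intro x
      have him : (ofComplex (⟨x, y⟩ : ℂ)).im = y := by
        rw [ofComplex_apply_of_im_pos (z := (⟨x, y⟩ : ℂ)) hy']; rfl
      have hre : (ofComplex (⟨x, y⟩ : ℂ)).re = x := by
        rw [ofComplex_apply_of_im_pos (z := (⟨x, y⟩ : ℂ)) hy']; rfl
      rw [him, ENNReal.ofReal_mul (Real.exp_pos _).le]
      by_cases hx : x ∈ Ico (0 : ℝ) 1
      · rw [indicator_of_mem hx]
        have : S01 (ofComplex (⟨x, y⟩ : ℂ)) = 1 := by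
          rw [S01, indicator_of_mem]
          rw [mem_ofPred_eq, hre]; exact hx
        rw [this]; ring
      · rw [indicator_of_notMem hx]
        have : S01 (ofComplex (⟨x, y⟩ : ℂ)) = 0 := by
          rw [S01, indicator_of_notMem]
          rw [mem_ofPred_eq, hre]; exact hx
        rw [this]; ring
    simp_rw [h1]
    have hmH : Measurable fun x : ℝ => ENNReal.ofReal (H (ofComplex (⟨x, y⟩ : ℂ))) := by
      refine ENNReal.measurable_ofReal.comp (hm.comp (meas_ofC.comp ?_))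
      have : (fun x : ℝ => (⟨x, y⟩ : ℂ)) = fun x : ℝ => (x : ℂ) + (y : ℂ) * Complex.I := by
        funext x; apply Complex.ext <;> simp
      rw [this]; fun_prop
    rw [lintegral_mul_const _ (hmH.indicator measurableSet_Ico), lintegral_indicator measurableSet_Ico,
      hM y hy', ← ENNReal.tsum_mul_right]
    refine tsum_congr fun m => ?_
    rw [← ENNReal.ofReal_mul (by have := hc m; positivity)]
    congr 1
    field_simp
  rw [setLIntegral_congr_fun measurableSet_Ioi e, lintegral_tsum]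
  · refine tsum_congr fun m => ?_
    rcases Nat.eq_zero_or_pos m with rfl | hm0
    · simp [hc0]
    · rw [J2 (hc m) hu hm0]
  · intro m
    refine Measurable.aemeasurable ?_
    fun_prop

/-- coefficients -/
noncomputable def bA (c : ℕ → ℝ) (k : ℕ) : ℝ :=
  ∑ n ∈ (Finset.Icc 1 k).filter (fun n => n ^ 2 ∣ k), c (k / n ^ 2) / ((k / n ^ 2 : ℕ) : ℝ)

theorem bA_nonneg {c : ℕ → ℝ} (hc : ∀ m, 0 ≤ c m) (k : ℕ) : 0 ≤ bA c k :=
  Finset.sum_nonneg fun _ _ => div_nonneg (hc _) (Nat.cast_nonneg _)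

theorem bA_zero (c : ℕ → ℝ) : bA c 0 = 0 := by simp [bA]

theorem rearr {c : ℕ → ℝ} (hc : ∀ m, 0 ≤ c m) {φ : ℕ → ℝ} (hφ : ∀ k, 0 ≤ φ k) :
    ∑' n : ℕ, ∑' m : ℕ, ENNReal.ofReal (c m / m * φ ((n + 1) ^ 2 * m)) =
      ∑' k : ℕ, ENNReal.ofReal (bA c k * φ k) := by
  have h1 : ∀ k : ℕ, ENNReal.ofReal (bA c k * φ k) = ∑' n : ℕ,
      if (n + 1) ^ 2 ∣ k ∧ 0 < k then
        ENNReal.ofReal (c (k / (n + 1) ^ 2) / ((k / (n + 1) ^ 2 : ℕ) : ℝ) * φ k) else 0 := by
    intro k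
    rw [bA, Finset.sum_mul, ENNReal.ofReal_sum_of_nonneg
      (fun n _ => mul_nonneg (div_nonneg (hc _) (Nat.cast_nonneg _)) (hφ _))]
    rw [tsum_eq_sum (s := Finset.range k)]
    · rw [Finset.sum_filter]
      have h2 : Finset.Icc 1 k = Finset.Ico 1 (k + 1) := by ext; simp
      rw [h2, Finset.sum_Ico_eq_sum_range, Nat.add_sub_cancel]
      refine Finset.sum_congr rfl fun n hn => ?_
      have h3 : 0 < k := by have := Finset.mem_range.mp hn; omega
      rw [add_comm 1 n]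
      by_cases h4 : (n + 1) ^ 2 ∣ k
      · rw [if_pos h4, if_pos ⟨h4, h3⟩]
      · rw [if_neg h4, if_neg (fun h => h4 h.1)]
    · intro n hn
      rw [if_neg]
      rintro ⟨h2, h3⟩
      apply hn
      rw [Finset.mem_range]
      have := Nat.le_of_dvd h3 h2
      nlinarith
  simp_rw [h1]
  rw [ENNReal.tsum_comm (f := fun k n : ℕ => if (n + 1) ^ 2 ∣ k ∧ 0 < k then
        ENNReal.ofReal (c (k / (n + 1) ^ 2) / ((k / (n + 1) ^ 2 : ℕ) : ℝ) * φ k) else 0)]
  refine tsum_congr fun n => ?_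
  have hinj : Function.Injective (fun m : ℕ => (n + 1) ^ 2 * m) := by
    intro m m' h
    exact Nat.eq_of_mul_eq_mul_left (by positivity) h
  refine Eq.trans ?_ (hinj.tsum_eq (f := fun k : ℕ => if (n + 1) ^ 2 ∣ k ∧ 0 < k then
        ENNReal.ofReal (c (k / (n + 1) ^ 2) / ((k / (n + 1) ^ 2 : ℕ) : ℝ) * φ k) else 0) ?_)
  · refine tsum_congr fun m => ?_
    have h2 : (n + 1) ^ 2 * m / (n + 1) ^ 2 = m := Nat.mul_div_cancel_left m (by positivity)
    simp only [h2]
    rcases Nat.eq_zero_or_pos m with rfl | hm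
    · simp
    · rw [if_pos ⟨dvd_mul_right _ _, by positivity⟩]
  · intro k hk
    rw [Function.mem_support] at hk
    have : (n + 1) ^ 2 ∣ k ∧ 0 < k := by
      by_contra h
      exact hk (if_neg h)
    obtain ⟨⟨m, hm⟩, -⟩ := this
    exact ⟨m, hm.symm⟩

open Vale.Agent.P004H.H392 (Lam Dat)

theorem Z_eq {H : ℍ → ℝ} (hm : Measurable H)
    (hinv : ∀ (g : SL(2, ℤ)) (z : ℍ), H (g • z) = H z) {c : ℕ → ℝ} (hc : ∀ m, 0 ≤ c m)
    (hc0 : c 0 = 0) (hM : Mean H c) (hD : Dat (bA c)) {t : ℝ} (ht : 0 < t) :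
    ∫⁻ z in (𝒟 : Set ℍ), ENNReal.ofReal (H z) *
        ∑' v : NV, ENNReal.ofReal (Real.exp (-(π * t * Qf v z))) =
      ENNReal.ofReal (Lam (bA c) t) := by
  rw [unf_main hm hinv t, Lam, ENNReal.ofReal_tsum_of_nonneg (H392.term_nonneg hD · t)
    (H392.summable_Lam hD ht)]
  have hφ : ∀ k : ℕ, 0 ≤ W (k * t) + W (k * t / 11) := fun k =>
    add_nonneg (H392.W_nonneg _) (H392.W_nonneg _)
  rw [← rearr hc hφ, ← ENNReal.tsum_mul_left]
  refine tsum_congr fun n => ?_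
  have h1 : ∀ z : ℍ, -(π * t * (((n : ℝ) + 1) ^ 2 / z.im)) =
      -(π * (t * ((n : ℝ) + 1) ^ 2) / z.im) := fun z => by ring
  simp_rw [h1]
  rw [H_int hm hc hc0 hM (by positivity), ← ENNReal.tsum_mul_left]
  refine tsum_congr fun m => ?_
  rw [show (2 : ℝ≥0∞) = ENNReal.ofReal 2 by simp, ← ENNReal.ofReal_mul (by norm_num)]
  congr 1
  have e1 : t * ((n : ℝ) + 1) ^ 2 * m = (((n + 1) ^ 2 * m : ℕ) : ℝ) * t := by push_cast; ring
  rw [e1]
  rcases Nat.eq_zero_or_pos m with rfl | hm0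
  · simp
  · have : (m : ℝ) ≠ 0 := by exact_mod_cast hm0.ne'
    field_simp

end Vale.Agent.P004H.H86
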