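import Mathlib

/-!
# P004H.H86: unfolding over `SL(2, ℤ)` with Mathlib's measure on the upper half plane
-/

open UpperHalfPlane MeasureTheory Set
open scoped MatrixGroups Modular ENNReal

namespace Vale.Agent.P004H.H86

theorem line_null (a : ℝ) : (volume : Measure ℂ) (Complex.re ⁻¹' {a}) = 0 := by
  have h : Complex.re ⁻¹' {a} = Complex.measurableEquivRealProd ⁻¹' ({a} ×ˢ (univ : Set ℝ)) := by
    ext z; simp
  rw [h, Complex.volume_preserving_equiv_real_prod.measure_preimage
    ((measurableSet_singleton a).prod MeasurableSet.univ).nullMeasurableSet, Measure.volume_eq_prod,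
    Measure.prod_prod]
  simp

/-- the boundary of the fundamental domain is a null set -/
theorem bd_null : (volume : Measure ℍ) (𝒟 \ 𝒟ᵒ) = 0 := by
  rw [volume_eq_lintegral]
  have h0 : (volume : Measure ℂ) ((↑) '' (𝒟 \ 𝒟ᵒ : Set ℍ)) = 0 := by
    have hsub : ((↑) '' (𝒟 \ 𝒟ᵒ : Set ℍ) : Set ℂ) ⊆
        Metric.sphere (0 : ℂ) 1 ∪ ((Complex.re ⁻¹' {1 / 2}) ∪ (Complex.re ⁻¹' {-(1 / 2)})) := by
      rintro _ ⟨z, ⟨hz, hz'⟩, rfl⟩
      rw [ModularGroup.fd, mem_ofPred_eq] at hz
      rw [ModularGroup.fdo, mem_ofPred_eq] at hz'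
      obtain ⟨h1, h2⟩ := hz
      by_cases h3 : 1 < Complex.normSq (z : ℂ)
      · right
        have h4 : ¬ |z.re| < 1 / 2 := fun h4 => hz' ⟨h3, h4⟩
        have h5 : |z.re| = 1 / 2 := le_antisymm h2 (not_lt.mp h4)
        rcases (abs_eq (by norm_num)).mp h5 with h6 | h6
        · left; simpa using h6
        · right; simpa using h6
      · left
        have h4 : Complex.normSq (z : ℂ) = 1 := le_antisymm (not_lt.mp h3) h1
        rw [mem_sphere_zero_iff_norm]
        rw [Complex.normSq_eq_norm_sq] at h4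
        nlinarith [norm_nonneg (z : ℂ)]
    refine measure_mono_null hsub ?_
    refine measure_union_null ?_ (measure_union_null ?_ ?_)
    · exact Measure.addHaar_sphere _ _ _
    · exact line_null _
    · exact line_null _
  exact setLIntegral_measure_zero _ _ h0

theorem sl_countable : Countable SL(2, ℤ) := by
  have : Function.Injective (fun g : SL(2, ℤ) => (fun i j => g.1 i j : Fin 2 → Fin 2 → ℤ)) := by
    intro g g' h
    apply Subtype.ext
    ext i j
    exact congrFun (congrFun h i) j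
  exact this.countable

/-- a.e. point has exactly two matrices in `SL(2, ℤ)` sending it into the fundamental domain. -/
theorem two_of : ∀ᵐ z : ℍ, ∑' γ : SL(2, ℤ), (𝒟 : Set ℍ).indicator (fun _ => (1 : ℝ≥0∞)) (γ • z) = 2 := by
  have := sl_countable
  have h1 : ∀ᵐ z : ℍ, ∀ γ : SL(2, ℤ), γ • z ∉ (𝒟 \ 𝒟ᵒ : Set ℍ) := by
    rw [ae_all_iff]
    intro γ
    have := measure_preimage_smul (μ := (volume : Measure ℍ)) (γ : GL (Fin 2) ℝ) (𝒟 \ 𝒟ᵒ : Set ℍ)
    rw [bd_null] at this
    rw [ae_iff]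
    simpa using! this
  filter_upwards [h1] with z hz
  obtain ⟨g, hg⟩ := ModularGroup.exists_smul_mem_fd z
  have hg' : g • z ∈ 𝒟ᵒ := by
    by_contra h
    exact hz g ⟨hg, h⟩
  have hne : g ≠ -g := by
    intro h
    have := congrArg (fun m : SL(2, ℤ) => m.1) h
    have h2 : (g : Matrix (Fin 2) (Fin 2) ℤ).det = 1 := g.2
    have h3 : (g : Matrix (Fin 2) (Fin 2) ℤ) = -(g : Matrix (Fin 2) (Fin 2) ℤ) := by
      simpa using this
    have h4 : (g : Matrix (Fin 2) (Fin 2) ℤ) = 0 := by
      ext i j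
      have := congrFun (congrFun h3 i) j
      simp only [Matrix.neg_apply] at this
      simp only [Matrix.zero_apply]
      omega
    rw [h4] at h2
    simp at h2
  have hs : ∀ γ : SL(2, ℤ), γ ∉ ({g, -g} : Finset SL(2, ℤ)) →
      (𝒟 : Set ℍ).indicator (fun _ => (1 : ℝ≥0∞)) (γ • z) = 0 := by
    intro γ hγ
    rw [indicator_of_notMem]
    intro hmem
    apply hγ
    have h5 : (γ * g⁻¹) • (g • z) ∈ 𝒟 := by
      rwa [← mul_smul, inv_mul_cancel_right]
    rcases ModularGroup.eq_one_or_neg_one_of_mem_fdo_mem_fd hg' h5 with h | h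
    · rw [mul_inv_eq_one] at h
      simp [h]
    · have : γ = -g := by
        rw [mul_inv_eq_iff_eq_mul] at h
        rw [h]; simp
      simp [this]
  rw [tsum_eq_sum hs, Finset.sum_pair hne, indicator_of_mem hg, indicator_of_mem]
  · norm_num
  · simpa using hg

/-- **Unfolding** over `SL(2, ℤ)`. -/
theorem unfold {h : ℍ → ℝ≥0∞} (hh : Measurable h) :
    ∑' γ : SL(2, ℤ), ∫⁻ z in (𝒟 : Set ℍ), h (γ • z) = 2 * ∫⁻ z, h z := by
  have := sl_countable
  have hD : MeasurableSet (𝒟 : Set ℍ) := ModularGroup.isClosed_fd.measurableSet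
  have h1 : ∀ γ : SL(2, ℤ), ∫⁻ z in (𝒟 : Set ℍ), h (γ • z) =
      ∫⁻ z, (𝒟 : Set ℍ).indicator (fun _ => (1 : ℝ≥0∞)) (γ⁻¹ • z) * h z := by
    intro γ
    rw [← lintegral_indicator hD]
    have mp : MeasurePreserving (fun z : ℍ => (γ : GL (Fin 2) ℝ) • z) volume volume :=
      measurePreserving_smul (γ : GL (Fin 2) ℝ) volume
    refine Eq.trans ?_ (mp.lintegral_comp_emb
      (MeasurableEquiv.smul (γ : GL (Fin 2) ℝ)).measurableEmbedding
      (fun z => (𝒟 : Set ℍ).indicator (fun _ => (1 : ℝ≥0∞)) (γ⁻¹ • z) * h z))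
    refine lintegral_congr fun z => ?_
    have e1 : (γ : GL (Fin 2) ℝ) • z = γ • z := rfl
    simp only [e1]
    rw [← mul_smul, inv_mul_cancel, one_smul]
    by_cases hz : z ∈ (𝒟 : Set ℍ)
    · simp [hz]
    · simp [hz]
  simp_rw [h1]
  rw [← lintegral_tsum]
  · have h2 : ∀ᵐ z : ℍ, ∑' γ : SL(2, ℤ), (𝒟 : Set ℍ).indicator (fun _ => (1 : ℝ≥0∞)) (γ⁻¹ • z) * h z
        = 2 * h z := by
      filter_upwards [two_of] with z hz
      rw [ENNReal.tsum_mul_right, ← hz]
      congr 1
      exact (Equiv.inv SL(2, ℤ)).tsum_eq (fun γ => (𝒟 : Set ℍ).indicator (fun _ => (1 : ℝ≥0∞)) (γ • z))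
    rw [lintegral_congr_ae h2, lintegral_const_mul _ hh]
  · intro γ
    have : Measurable fun z : ℍ => (γ⁻¹ • z : ℍ) :=
      (MeasurableEquiv.smul ((γ⁻¹ : SL(2, ℤ)) : GL (Fin 2) ℝ)).measurable
    exact (((measurable_const.indicator hD).comp this).mul hh).aemeasurable
theorem meas_ofC : Measurable (ofComplex : ℂ → ℍ) := by
  rw [← measurableEmbedding_coe.measurable_comp_iff]
  have h : (UpperHalfPlane.coe ∘ (ofComplex : ℂ → ℍ)) =
      fun w : ℂ => if 0 < w.im then w else ((Classical.choice inferInstance : ℍ) : ℂ) := by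
    funext w
    simp only [Function.comp_apply, ofComplex_apply_eq_ite]
    split_ifs <;> rfl
  rw [h]
  exact Measurable.ite (measurableSet_lt measurable_const Complex.measurable_im) measurable_id
    measurable_const

theorem lint_H {h : ℍ → ℝ≥0∞} (hh : Measurable h) :
    ∫⁻ z, h z = ∫⁻ y in Ioi (0 : ℝ), ∫⁻ x : ℝ,
      h (ofComplex (⟨x, y⟩ : ℂ)) * ENNReal.ofReal (1 / y ^ 2) := by
  -- the function on `ℂ`
  set φ : ℂ → ℝ≥0∞ := fun w => h (ofComplex w) * ENNReal.ofReal (1 / w.im ^ 2) with hφ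
  have hU : MeasurableSet {w : ℂ | 0 < w.im} := measurableSet_lt measurable_const Complex.measurable_im
  have hφm : Measurable φ := by
    refine (hh.comp meas_ofC).mul ?_
    exact ENNReal.measurable_ofReal.comp (by fun_prop)
  have hρ : ∀ z : ℍ, ((((1 / NNReal.mk z.im z.im_pos.le : NNReal) ^ 2 : NNReal)) : ℝ≥0∞) =
      ENNReal.ofReal (1 / z.im ^ 2) := by
    intro z
    rw [ENNReal.ofReal, ENNReal.coe_inj]
    ext
    rw [Real.coe_toNNReal _ (by positivity)]
    simp
  have h1 : ∫⁻ z, h z = ∫⁻ w in {w : ℂ | 0 < w.im}, φ w := by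
    rw [volume_def, lintegral_withDensity_eq_lintegral_mul _ _ hh]
    · have hr : (range (UpperHalfPlane.coe)) = {w : ℂ | 0 < w.im} := by
        ext w
        constructor
        · rintro ⟨z, rfl⟩; exact z.im_pos
        · intro hw; exact ⟨⟨w, hw⟩, rfl⟩
      rw [← hr, ← measurableEmbedding_coe.map_comap,
        measurableEmbedding_coe.lintegral_map]
      refine lintegral_congr fun z => ?_
      simp only [hφ, Pi.mul_apply, ofComplex_apply, hρ]
      rw [mul_comm]
      rfl
    · simp_rw [hρ]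
      have : Measurable fun z : ℍ => (z : ℂ).im := Complex.measurable_im.comp measurable_coe
      exact ENNReal.measurable_ofReal.comp ((measurable_const.div (this.pow_const 2)))
  rw [h1]
  rw [← Complex.volume_preserving_equiv_real_prod.symm.setLIntegral_comp_preimage hU hφm]
  have h2 : Complex.measurableEquivRealProd.symm ⁻¹' {w : ℂ | 0 < w.im} = (univ : Set ℝ) ×ˢ Ioi (0 : ℝ) := by
    ext p; simp [Complex.measurableEquivRealProd_symm_apply]
  rw [h2, Measure.volume_eq_prod, ← Measure.prod_restrict, Measure.restrict_univ, lintegral_prod_symm']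
  · rfl
  · exact hφm.comp Complex.measurableEquivRealProd.symm.measurable

end Vale.Agent.P004H.H86
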